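import Mathlib
import Vale.Agent.Lib.P060.Defs

namespace Vale.Agent.Lib.P060

open Finset

variable {V : Type*}

/-- A clique model indexed by an arbitrary finite type gives a clique minor of that size. -/
theorem hasCliqueMinor_of_model {ι : Type*} [Fintype ι] (G : SimpleGraph V) (B : ι → Set V)
    (h1 : ∀ i, (B i).Nonempty)
    (h2 : ∀ i, (G.induce (B i)).Connected)
    (h3 : ∀ i j, i ≠ j → Disjoint (B i) (B j))
    (h4 : ∀ i j, i ≠ j → ∃ u ∈ B i, ∃ v ∈ B j, G.Adj u v) :
    HasCliqueMinor G (Fintype.card ι) := by
  classical
  let e := (Fintype.equivFin ι).symm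
  refine ⟨fun i => B (e i), fun i => h1 _, fun i => h2 _, ?_, ?_⟩
  · intro i j hij
    exact h3 _ _ (fun h => hij (e.injective h))
  · intro i j hij
    exact h4 _ _ (fun h => hij (e.injective h))

theorem HasCliqueMinor.mono {G : SimpleGraph V} {s t : ℕ} (h : HasCliqueMinor G t) (hst : s ≤ t) :
    HasCliqueMinor G s := by
  obtain ⟨B, h1, h2, h3, h4⟩ := h
  refine ⟨fun i => B (Fin.castLE hst i), fun i => h1 _, fun i => h2 _, ?_, ?_⟩
  · intro i j hij
    exact h3 _ _ (fun h => hij (Fin.castLE_injective hst h))
  · intro i j hij
    exact h4 _ _ (fun h => hij (Fin.castLE_injective hst h))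

/-- A family of `ι`-indexed disjoint pairs of distinct non-adjacent vertices. -/
def IsCoMatching (G : SimpleGraph V) {ι : Type} (a b : ι → V) : Prop :=
  (∀ i, a i ≠ b i ∧ ¬ G.Adj (a i) (b i)) ∧ Function.Injective (Sum.elim a b)

/-- `G` has `m` pairwise disjoint pairs of distinct non-adjacent vertices. -/
def HasCoMatching (G : SimpleGraph V) (m : ℕ) : Prop :=
  ∃ (ι : Type) (_ : Fintype ι) (a b : ι → V), Fintype.card ι = m ∧ IsCoMatching G a b

theorem HasCoMatching.two_mul_le [Fintype V] {G : SimpleGraph V} {m : ℕ}
    (h : HasCoMatching G m) : 2 * m ≤ Fintype.card V := by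
  obtain ⟨ι, _, a, b, hc, -, hinj⟩ := h
  have := Fintype.card_le_of_injective _ hinj
  simp only [Fintype.card_sum] at this
  omega

/-- Extending a co-matching by one more pair. -/
theorem HasCoMatching.succ {G : SimpleGraph V} {ι : Type} [Fintype ι] {a b : ι → V}
    (h : IsCoMatching G a b) {u u' : V} (huu : u ≠ u') (hadj : ¬ G.Adj u u')
    (hua : ∀ i, a i ≠ u) (hub : ∀ i, b i ≠ u) (hu'a : ∀ i, a i ≠ u') (hu'b : ∀ i, b i ≠ u') :
    HasCoMatching G (Fintype.card ι + 1) := by
  classical
  refine ⟨Option ι, inferInstance, fun o => o.elim u a, fun o => o.elim u' b, ?_, ?_, ?_⟩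
  · simp
  · intro o
    cases o with
    | none => exact ⟨huu, hadj⟩
    | some i => exact h.1 i
  · have hinj := h.2
    have haa : ∀ i j, a i = a j → i = j := fun i j hij => by
      have := @hinj (Sum.inl i) (Sum.inl j) (by simpa using hij)
      simpa using this
    have hbb : ∀ i j, b i = b j → i = j := fun i j hij => by
      have := @hinj (Sum.inr i) (Sum.inr j) (by simpa using hij)
      simpa using this
    have hab : ∀ i j, a i ≠ b j := fun i j hij => by
      have := @hinj (Sum.inl i) (Sum.inr j) (by simpa using hij)
      simp at this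
    rintro (x | x) (y | y) hxy
    · cases x with
      | none =>
        cases y with
        | none => rfl
        | some j => exact absurd hxy.symm (by simpa using hua j)
      | some i =>
        cases y with
        | none => exact absurd hxy (by simpa using hua i)
        | some j => simp only [Sum.elim_inl, Option.elim_some] at hxy; rw [haa i j hxy]
    · cases x with
      | none =>
        cases y with
        | none => exact absurd hxy (by simpa using huu)
        | some j => exact absurd hxy.symm (by simpa using hub j)
      | some i =>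
        cases y with
        | none => exact absurd hxy (by simpa using hu'a i)
        | some j => exact absurd hxy (by simpa using hab i j)
    · cases x with
      | none =>
        cases y with
        | none => exact absurd hxy.symm (by simpa using huu)
        | some j => exact absurd hxy.symm (by simpa using hu'a j)
      | some i =>
        cases y with
        | none => exact absurd hxy (by simpa using hub i)
        | some j => exact absurd hxy.symm (by simpa using hab j i)
    · cases x with
      | none =>
        cases y with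
        | none => rfl
        | some j => exact absurd hxy.symm (by simpa using hu'b j)
      | some i =>
        cases y with
        | none => exact absurd hxy (by simpa using hu'b i)
        | some j => simp only [Sum.elim_inr, Option.elim_some] at hxy; rw [hbb i j hxy]

/-- Dominating edge: `x` and `y` are adjacent and every other vertex is adjacent to one of them. -/
def Dom (G : SimpleGraph V) (x y : V) : Prop :=
  G.Adj x y ∧ ∀ w, w ≠ x → w ≠ y → G.Adj w x ∨ G.Adj w y

theorem Dom.symm {G : SimpleGraph V} {x y : V} (h : Dom G x y) : Dom G y x :=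
  ⟨h.1.symm, fun w hwy hwx => (h.2 w hwx hwy).symm⟩

section counting

variable [Fintype V] [DecidableEq V] (G : SimpleGraph V) [DecidableRel G.Adj]

/-- Finset of non-neighbours of `v` other than `v`. -/
def nn (v : V) : Finset V := univ.filter (fun w => w ≠ v ∧ ¬ G.Adj v w)

theorem mem_nn {v w : V} : w ∈ nn G v ↔ w ≠ v ∧ ¬ G.Adj v w := by
  simp [nn]

theorem card_nn_eq (v : V) : (nn G v).card = Set.ncard {w : V | w ≠ v ∧ ¬ G.Adj v w} := by
  rw [← Set.ncard_coe_finset]
  congr 1
  ext w
  simp [mem_nn]

open Classical in
/-- Vertices `y ≠ x` such that `xy` is not a dominating edge. -/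
noncomputable def bad (x : V) : Finset V := univ.filter (fun y => y ≠ x ∧ ¬ Dom G x y)

theorem bad_subset (x : V) :
    bad G x ⊆ nn G x ∪ (nn G x).biUnion (fun w => (nn G w).erase x) := by
  classical
  intro y hy
  simp only [bad, mem_filter, mem_univ, true_and] at hy
  obtain ⟨hyx, hdom⟩ := hy
  by_cases hadj : G.Adj x y
  · have : ¬ ∀ w, w ≠ x → w ≠ y → G.Adj w x ∨ G.Adj w y := fun h => hdom ⟨hadj, h⟩
    push Not at this
    obtain ⟨w, hwx, hwy, h1, h2⟩ := this
    refine mem_union_right _ (mem_biUnion.2 ⟨w, ?_, ?_⟩)
    · exact (mem_nn G).2 ⟨hwx, fun h => h1 h.symm⟩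
    · exact mem_erase.2 ⟨hyx, (mem_nn G).2 ⟨fun h => hwy h.symm, h2⟩⟩
  · exact mem_union_left _ ((mem_nn G).2 ⟨hyx, hadj⟩)

theorem card_bad_le {k : ℕ} (hk : ∀ v, (nn G v).card ≤ k) (x : V) : (bad G x).card ≤ k ^ 2 := by
  classical
  have h1 : (bad G x).card ≤ (nn G x).card + ((nn G x).biUnion (fun w => (nn G w).erase x)).card :=
    (card_le_card (bad_subset G x)).trans (card_union_le _ _)
  have h2 : ((nn G x).biUnion (fun w => (nn G w).erase x)).card ≤ (nn G x).card * (k - 1) := by
    refine card_biUnion_le_card_mul _ _ _ ?_
    intro w hw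
    have hx : x ∈ nn G w := by
      rw [mem_nn] at hw ⊢
      exact ⟨fun h => hw.1 h.symm, fun h => hw.2 h.symm⟩
    rw [card_erase_of_mem hx]
    exact Nat.sub_le_sub_right (hk w) 1
  have h3 := hk x
  rcases Nat.eq_zero_or_pos (nn G x).card with h0 | hpos
  · rw [h0] at h1 h2
    have : (bad G x).card = 0 := by omega
    rw [this]; exact Nat.zero_le _
  · have hk1 : 1 ≤ k := le_trans hpos h3
    calc (bad G x).card ≤ (nn G x).card + (nn G x).card * (k - 1) := by omega
      _ = (nn G x).card * k := by
        obtain ⟨j, rfl⟩ : ∃ j, k = j + 1 := ⟨k - 1, by omega⟩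
        simp only [Nat.add_sub_cancel]; ring
      _ ≤ k * k := Nat.mul_le_mul_right k h3
      _ = k ^ 2 := by ring

end counting

section hall

variable [Fintype V] [DecidableEq V] (G : SimpleGraph V) [DecidableRel G.Adj]

/-- Re-pairing a large co-matching into dominating edges, by the marriage theorem. -/
theorem exists_dom_pairing {ι : Type} [Fintype ι] {a b : ι → V} (h : IsCoMatching G a b)
    {k : ℕ} (hk : ∀ v, (nn G v).card ≤ k) (hm : 2 * k ^ 2 ≤ Fintype.card ι) :
    ∃ f : ι → ι, Function.Injective f ∧ ∀ i, Dom G (a i) (b (f i)) := by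
  classical
  have hinj := h.2
  have haa : Function.Injective a := fun i j hij => by
    have := @hinj (Sum.inl i) (Sum.inl j) (by simpa using hij)
    simpa using this
  have hbb : Function.Injective b := fun i j hij => by
    have := @hinj (Sum.inr i) (Sum.inr j) (by simpa using hij)
    simpa using this
  have hab : ∀ i j, a i ≠ b j := fun i j hij => by
    have := @hinj (Sum.inl i) (Sum.inr j) (by simpa using hij)
    simp at this
  let t : ι → Finset ι := fun i => univ.filter (fun j => Dom G (a i) (b j))
  -- for each `i`, few `j` fail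
  have hA : ∀ i, (univ.filter (fun j => ¬ Dom G (a i) (b j))).card ≤ k ^ 2 := by
    intro i
    refine le_trans ?_ (card_bad_le G hk (a i))
    refine card_le_card_of_injOn b ?_ (hbb.injOn)
    intro j hj
    simp only [coe_filter, mem_univ, true_and, Set.mem_ofPred_eq] at hj
    simp only [bad, coe_filter, mem_univ, true_and, Set.mem_ofPred_eq]
    exact ⟨fun e => hab i j e.symm, hj⟩
  -- for each `j`, few `i` fail
  have hB : ∀ j, (univ.filter (fun i => ¬ Dom G (a i) (b j))).card ≤ k ^ 2 := by
    intro j
    refine le_trans ?_ (card_bad_le G hk (b j))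
    refine card_le_card_of_injOn a ?_ (haa.injOn)
    intro i hi
    simp only [coe_filter, mem_univ, true_and, Set.mem_ofPred_eq] at hi
    simp only [bad, coe_filter, mem_univ, true_and, Set.mem_ofPred_eq]
    exact ⟨fun e => hab i j e, fun hd => hi hd.symm⟩
  have hcard : ∀ i, Fintype.card ι - k ^ 2 ≤ (t i).card := by
    intro i
    have := card_filter_add_card_filter_not (s := (univ : Finset ι))
      (fun j => Dom G (a i) (b j))
    have h2 := hA i
    simp only [card_univ] at this
    show Fintype.card ι - k ^ 2 ≤ (univ.filter (fun j => Dom G (a i) (b j))).card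
    omega
  have hall : ∀ s : Finset ι, s.card ≤ (s.biUnion t).card := by
    intro s
    by_cases hs : s.card ≤ Fintype.card ι - k ^ 2
    · rcases s.eq_empty_or_nonempty with rfl | ⟨i, hi⟩
      · simp
      · exact hs.trans ((hcard i).trans (card_le_card (subset_biUnion_of_mem t hi)))
    · have hbig : k ^ 2 < s.card := by omega
      have huniv : s.biUnion t = univ := by
        ext j
        simp only [mem_biUnion, mem_univ, iff_true]
        by_contra hcon
        push Not at hcon
        have hsub : s ⊆ univ.filter (fun i => ¬ Dom G (a i) (b j)) := by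
          intro i hi
          simp only [mem_filter, mem_univ, true_and]
          intro hd
          exact hcon i hi (by simp only [t, mem_filter, mem_univ, true_and]; exact hd)
        have := (card_le_card hsub).trans (hB j)
        omega
      rw [huniv, card_univ]
      exact card_le_univ s
  obtain ⟨f, hf, hft⟩ := (Finset.all_card_le_biUnion_card_iff_exists_injective t).1 hall
  refine ⟨f, hf, fun i => ?_⟩
  have := hft i
  simpa only [t, mem_filter, mem_univ, true_and] using this

end hall

section final

variable [Fintype V] (G : SimpleGraph V)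

theorem minor_of_dom {ι : Type} [Fintype ι] {a b : ι → V} (h : IsCoMatching G a b)
    {f : ι → ι} (hf : Function.Injective f) (hdom : ∀ i, Dom G (a i) (b (f i)))
    (hmax : ∀ u u', u ≠ u' → u ∉ Set.range (Sum.elim a b) → u' ∉ Set.range (Sum.elim a b) →
      G.Adj u u') :
    HasCliqueMinor G (Fintype.card V - Fintype.card ι) := by
  classical
  have hinj := h.2
  have haa : Function.Injective a := fun i j hij => by
    have := @hinj (Sum.inl i) (Sum.inl j) (by simpa using hij)
    simpa using this
  have hbb : Function.Injective b := fun i j hij => by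
    have := @hinj (Sum.inr i) (Sum.inr j) (by simpa using hij)
    simpa using this
  have hab : ∀ i j, a i ≠ b j := fun i j hij => by
    have := @hinj (Sum.inl i) (Sum.inr j) (by simpa using hij)
    simp at this
  have hra : ∀ (u : V) (i : ι), u ∉ Set.range (Sum.elim a b) → u ≠ a i := by
    intro u i hu e
    exact hu ⟨Sum.inl i, by simp [e]⟩
  have hrb : ∀ (u : V) (i : ι), u ∉ Set.range (Sum.elim a b) → u ≠ b i := by
    intro u i hu e
    exact hu ⟨Sum.inr i, by simp [e]⟩
  have h2m : 2 * Fintype.card ι ≤ Fintype.card V := by
    have := Fintype.card_le_of_injective _ hinj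
    simp only [Fintype.card_sum] at this
    omega
  let κ := ι ⊕ {u : V // u ∉ Set.range (Sum.elim a b)}
  let B : κ → Set V := Sum.elim (fun i => {a i, b (f i)}) (fun u => {u.1})
  have hcard : Fintype.card κ = Fintype.card V - Fintype.card ι := by
    have h1 : Fintype.card {u : V // u ∉ Set.range (Sum.elim a b)}
        = Fintype.card V - Fintype.card {u : V // u ∈ Set.range (Sum.elim a b)} :=
      Fintype.card_subtype_compl _
    have h2 : Fintype.card {u : V // u ∈ Set.range (Sum.elim a b)} = Fintype.card (ι ⊕ ι) := by
      rw [← Set.card_range_of_injective hinj]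
    simp only [κ, Fintype.card_sum, h1, h2]
    omega
  rw [← hcard]
  refine hasCliqueMinor_of_model G B ?_ ?_ ?_ ?_
  · rintro (i | u)
    · exact Set.insert_nonempty _ _
    · exact Set.singleton_nonempty _
  · rintro (i | u)
    · exact SimpleGraph.induce_pair_connected_of_adj (hdom i).1
    · show (G.induce ({u.1} : Set V)).Connected
      exact ⟨SimpleGraph.Preconnected.of_subsingleton⟩
  · rintro (i | u) (j | u') hne
    · have hij : i ≠ j := fun e => hne (by rw [e])
      rw [Set.disjoint_left]
      intro x hx hx'
      simp only [B, Sum.elim_inl, Set.mem_insert_iff, Set.mem_singleton_iff] at hx hx'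
      rcases hx with rfl | rfl <;> rcases hx' with e | e
      · exact hij (haa e)
      · exact hab _ _ e
      · exact hab _ _ e.symm
      · exact hij (hf (hbb e))
    · rw [Set.disjoint_left]
      intro x hx hx'
      simp only [B, Sum.elim_inl, Sum.elim_inr, Set.mem_insert_iff, Set.mem_singleton_iff]
        at hx hx'
      rcases hx with rfl | rfl
      · exact hra _ i u'.2 hx'.symm
      · exact hrb _ (f i) u'.2 hx'.symm
    · rw [Set.disjoint_left]
      intro x hx hx'
      simp only [B, Sum.elim_inl, Sum.elim_inr, Set.mem_insert_iff, Set.mem_singleton_iff]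
        at hx hx'
      rcases hx' with rfl | rfl
      · exact hra _ j u.2 hx.symm
      · exact hrb _ (f j) u.2 hx.symm
    · rw [Set.disjoint_left]
      intro x hx hx'
      simp only [B, Sum.elim_inr, Set.mem_singleton_iff] at hx hx'
      exact hne (by rw [Subtype.ext (hx.symm.trans hx')])
  · rintro (i | u) (j | u') hne
    · have hij : i ≠ j := fun e => hne (by rw [e])
      have := (hdom i).2 (a j) (fun e => hij (haa e).symm) (fun e => hab _ _ e)
      rcases this with h1 | h1
      · exact ⟨a i, by simp [B], a j, by simp [B], h1.symm⟩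
      · exact ⟨b (f i), by simp [B], a j, by simp [B], h1.symm⟩
    · have := (hdom i).2 u'.1 (hra _ i u'.2) (hrb _ (f i) u'.2)
      rcases this with h1 | h1
      · exact ⟨a i, by simp [B], u'.1, by simp [B], h1.symm⟩
      · exact ⟨b (f i), by simp [B], u'.1, by simp [B], h1.symm⟩
    · have := (hdom j).2 u.1 (hra _ j u.2) (hrb _ (f j) u.2)
      rcases this with h1 | h1
      · exact ⟨u.1, by simp [B], a j, by simp [B], h1⟩
      · exact ⟨u.1, by simp [B], b (f j), by simp [B], h1⟩
    · have huu : u.1 ≠ u'.1 := fun e => hne (by rw [Subtype.ext e])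
      exact ⟨u.1, by simp [B], u'.1, by simp [B], hmax _ _ huu u.2 u'.2⟩

theorem colorable_of_coMatching {ι : Type} [Fintype ι] {a b : ι → V} (h : IsCoMatching G a b) :
    G.Colorable (Fintype.card V - Fintype.card ι) := by
  classical
  have hinj := h.2
  have haa : Function.Injective a := fun i j hij => by
    have := @hinj (Sum.inl i) (Sum.inl j) (by simpa using hij)
    simpa using this
  have hbb : Function.Injective b := fun i j hij => by
    have := @hinj (Sum.inr i) (Sum.inr j) (by simpa using hij)
    simpa using this
  have hab : ∀ i j, a i ≠ b j := fun i j hij => by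
    have := @hinj (Sum.inl i) (Sum.inr j) (by simpa using hij)
    simp at this
  have hanb : ∀ i, a i ∉ Set.range b := by
    rintro i ⟨j, hj⟩
    exact hab i j hj.symm
  let c : V → {v : V // v ∉ Set.range b} := fun v =>
    if hv : v ∈ Set.range b then ⟨a hv.choose, hanb _⟩ else ⟨v, hv⟩
  have hcb : ∀ i, c (b i) = ⟨a i, hanb i⟩ := by
    intro i
    have hv : b i ∈ Set.range b := ⟨i, rfl⟩
    have : hv.choose = i := hbb hv.choose_spec
    simp only [c, dif_pos hv, this]
  have hcn : ∀ v (hv : v ∉ Set.range b), c v = ⟨v, hv⟩ := by
    intro v hv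
    simp only [c, dif_neg hv]
  have hcard : Fintype.card {v : V // v ∉ Set.range b} = Fintype.card V - Fintype.card ι := by
    have h1 : Fintype.card {u : V // u ∉ Set.range b}
        = Fintype.card V - Fintype.card {u : V // u ∈ Set.range b} :=
      Fintype.card_subtype_compl _
    have h2 : Fintype.card {u : V // u ∈ Set.range b} = Fintype.card ι := by
      rw [← Set.card_range_of_injective hbb]
    rw [h1, h2]
  rw [← hcard]
  refine (SimpleGraph.Coloring.mk c ?_).colorable
  intro v w hvw hc
  by_cases hv : v ∈ Set.range b <;> by_cases hw : w ∈ Set.range b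
  · obtain ⟨i, rfl⟩ := hv
    obtain ⟨j, rfl⟩ := hw
    rw [hcb, hcb] at hc
    have : a i = a j := congrArg Subtype.val hc
    rw [haa this] at hvw
    exact G.loopless.irrefl _ hvw
  · obtain ⟨i, rfl⟩ := hv
    rw [hcb, hcn w hw] at hc
    have : a i = w := congrArg Subtype.val hc
    rw [← this] at hvw
    exact (h.1 i).2 hvw.symm
  · obtain ⟨j, rfl⟩ := hw
    rw [hcb, hcn v hv] at hc
    have : v = a j := congrArg Subtype.val hc
    rw [this] at hvw
    exact (h.1 j).2 hvw
  · rw [hcn v hv, hcn w hw] at hc
    have : v = w := congrArg Subtype.val hc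
    rw [this] at hvw
    exact G.loopless.irrefl _ hvw

/-- Main theorem: dense graphs with a large matching of non-edges satisfy the Hadwiger
inequality. -/
theorem hadwiger_of_dense (k m : ℕ)
    (hk : ∀ v : V, Set.ncard {w : V | w ≠ v ∧ ¬ G.Adj v w} ≤ k)
    (a b : Fin m → V) (hab : ∀ i, a i ≠ b i ∧ ¬ G.Adj (a i) (b i))
    (hinj : Function.Injective (Sum.elim a b)) (hm : 2 * k ^ 2 ≤ m) (t : ℕ)
    (ht : ¬ HasCliqueMinor G (t + 1)) : G.Colorable t := by
  classical
  have hP : HasCoMatching G m := ⟨Fin m, inferInstance, a, b, by simp, hab, hinj⟩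
  have hmV : m ≤ Fintype.card V := by have := hP.two_mul_le; omega
  obtain ⟨ι, _, a', b', hc, hco⟩ := Nat.findGreatest_spec (P := HasCoMatching G) hmV hP
  have hle : m ≤ Nat.findGreatest (HasCoMatching G) (Fintype.card V) := Nat.le_findGreatest hmV hP
  have hnot : ¬ HasCoMatching G (Fintype.card ι + 1) := by
    intro hsucc
    have h1 : Fintype.card ι + 1 ≤ Fintype.card V := by have := hsucc.two_mul_le; omega
    have := Nat.le_findGreatest h1 hsucc
    omega
  have hk' : ∀ v, (nn G v).card ≤ k := fun v => by rw [card_nn_eq]; exact hk v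
  obtain ⟨f, hf, hdom⟩ := exists_dom_pairing G hco hk' (by omega)
  have hmax : ∀ u u', u ≠ u' → u ∉ Set.range (Sum.elim a' b') →
      u' ∉ Set.range (Sum.elim a' b') → G.Adj u u' := by
    intro u u' huu hu hu'
    by_contra hna
    refine hnot (HasCoMatching.succ hco huu hna ?_ ?_ ?_ ?_)
    · exact fun i e => hu ⟨Sum.inl i, by simp [e]⟩
    · exact fun i e => hu ⟨Sum.inr i, by simp [e]⟩
    · exact fun i e => hu' ⟨Sum.inl i, by simp [e]⟩
    · exact fun i e => hu' ⟨Sum.inr i, by simp [e]⟩
  have hminor := minor_of_dom G hco hf hdom hmax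
  have hcol := colorable_of_coMatching G hco
  have hlt : Fintype.card V - Fintype.card ι ≤ t := by
    by_contra hcon
    exact ht (hminor.mono (by omega))
  exact hcol.mono hlt

end final

end Vale.Agent.Lib.P060
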