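import Vale.Agent.Lib.P060.Dense

/-!
# Explicit minor and colouring bounds for dense graphs

For a graph in which every vertex has at most `k` non-neighbours and which has `m ≥ 2 k ^ 2`
pairwise disjoint non-adjacent pairs: it is `(|V| - m)`-colourable, it has a clique minor on
`⌈|V| / 2⌉` vertices, and if no family of `m + 1` such pairs exists it has a clique minor on
`|V| - m` vertices.
-/

namespace Vale.Agent.Lib.P060

open Finset

variable {V : Type*}

/-- A co-matching of size `m` can be indexed by `Fin m`. -/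
theorem HasCoMatching.exists_fin {G : SimpleGraph V} {m : ℕ} (h : HasCoMatching G m) :
    ∃ a b : Fin m → V, (∀ i, a i ≠ b i ∧ ¬ G.Adj (a i) (b i)) ∧
      Function.Injective (Sum.elim a b) := by
  obtain ⟨ι, inst, a, b, hc, hab, hinj⟩ := h
  let e : Fin m ≃ ι := (Fintype.equivFinOfCardEq hc).symm
  refine ⟨a ∘ e, b ∘ e, fun i => hab (e i), ?_⟩
  have hcomp : Sum.elim (a ∘ e) (b ∘ e) = Sum.elim a b ∘ Sum.map e e := by
    funext x
    cases x <;> rfl
  rw [hcomp]
  exact hinj.comp (e.injective.sumMap e.injective)

section explicit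

variable [Fintype V] (G : SimpleGraph V)

/-- Explicit form of the dense case: colouring number, half-size clique minor, and the clique
minor of order `|V| - m` when the family of non-adjacent pairs is of maximum size. -/
theorem dense_explicit (k m : ℕ)
    (hk : ∀ v : V, Set.ncard {w : V | w ≠ v ∧ ¬ G.Adj v w} ≤ k)
    (a b : Fin m → V) (hab : ∀ i, a i ≠ b i ∧ ¬ G.Adj (a i) (b i))
    (hinj : Function.Injective (Sum.elim a b)) (hm : 2 * k ^ 2 ≤ m) :
    G.Colorable (Fintype.card V - m) ∧
    HasCliqueMinor G ((Fintype.card V + 1) / 2) ∧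
    ((¬ ∃ a' b' : Fin (m + 1) → V, (∀ i, a' i ≠ b' i ∧ ¬ G.Adj (a' i) (b' i)) ∧
        Function.Injective (Sum.elim a' b')) → HasCliqueMinor G (Fintype.card V - m)) ∧
    (∀ t : ℕ, ¬ HasCliqueMinor G (t + 1) → G.Colorable t) := by
  classical
  have hco0 : IsCoMatching G a b := ⟨hab, hinj⟩
  have hk' : ∀ v, (nn G v).card ≤ k := fun v => by
    rw [card_nn_eq]
    exact hk v
  have hP : HasCoMatching G m := ⟨Fin m, inferInstance, a, b, by simp, hab, hinj⟩
  have hmV : m ≤ Fintype.card V := by
    have := hP.two_mul_le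
    omega
  refine ⟨?_, ?_, ?_, fun t ht => hadwiger_of_dense G k m hk a b hab hinj hm t ht⟩
  · have hcol := colorable_of_coMatching G hco0
    rw [Fintype.card_fin] at hcol
    exact hcol
  · obtain ⟨ι, _, a', b', hc, hco⟩ := Nat.findGreatest_spec (P := HasCoMatching G) hmV hP
    have hle : m ≤ Nat.findGreatest (HasCoMatching G) (Fintype.card V) :=
      Nat.le_findGreatest hmV hP
    have hnot : ¬ HasCoMatching G (Fintype.card ι + 1) := by
      intro hsucc
      have h1 : Fintype.card ι + 1 ≤ Fintype.card V := by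
        have := hsucc.two_mul_le
        omega
      have := Nat.le_findGreatest h1 hsucc
      omega
    obtain ⟨f, hf, hdom⟩ := exists_dom_pairing G hco hk' (by omega)
    have hmax : ∀ u u', u ≠ u' → u ∉ Set.range (Sum.elim a' b') →
        u' ∉ Set.range (Sum.elim a' b') → G.Adj u u' := by
      intro u u' huu hu hu'
      by_contra hna
      refine hnot (HasCoMatching.succ hco huu hna ?_ ?_ ?_ ?_)
      · exact fun i e => hu ⟨Sum.inl i, by simp [e]⟩
      · exact fun i e => hu ⟨Sum.inr i, by simp [e]⟩
      · exact fun i e => hu' ⟨Sum.inl i, by simp [e]⟩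
      · exact fun i e => hu' ⟨Sum.inr i, by simp [e]⟩
    have hminor := minor_of_dom G hco hf hdom hmax
    have hP2 : HasCoMatching G (Fintype.card ι) := ⟨ι, inferInstance, a', b', rfl, hco⟩
    have h2 : 2 * Fintype.card ι ≤ Fintype.card V := hP2.two_mul_le
    exact hminor.mono (by omega)
  · intro hno
    obtain ⟨f, hf, hdom⟩ := exists_dom_pairing G hco0 hk' (by rw [Fintype.card_fin]; exact hm)
    have hmax : ∀ u u', u ≠ u' → u ∉ Set.range (Sum.elim a b) →
        u' ∉ Set.range (Sum.elim a b) → G.Adj u u' := by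
      intro u u' huu hu hu'
      by_contra hna
      have hsucc : HasCoMatching G (Fintype.card (Fin m) + 1) := by
        refine HasCoMatching.succ hco0 huu hna ?_ ?_ ?_ ?_
        · exact fun i e => hu ⟨Sum.inl i, by simp [e]⟩
        · exact fun i e => hu ⟨Sum.inr i, by simp [e]⟩
        · exact fun i e => hu' ⟨Sum.inl i, by simp [e]⟩
        · exact fun i e => hu' ⟨Sum.inr i, by simp [e]⟩
      rw [Fintype.card_fin] at hsucc
      exact hno hsucc.exists_fin
    have hminor := minor_of_dom G hco0 hf hdom hmax
    rw [Fintype.card_fin] at hminor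
    exact hminor

end explicit

end Vale.Agent.Lib.P060
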